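import Vale.Agent.P211.Cert.Contact.Proof
import Vale.Agent.P211.Cert.Interior.Proof
import Vale.Agent.P211.Cert.Pair.Main
import Vale.Agent.P211.Cert.Vector
import Vale.Agent.P211.Main.Positive

open Vale.Agent.P211 Vale.Agent.P211.Main Vale.Agent.P211.Cert
open scoped ContDiff

namespace Vale.Agent.Results.P211.EinsteinSecNonneg

universe u

/-- Einstein four-manifolds with nonnegative sectional curvature: one Weyl half vanishes or the
curvature is parallel and that of the product of two equal spheres. -/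
theorem result :
    (∀ (X : Type u) [TopologicalSpace X] [ChartedSpace Euc4 X]
      [IsManifold (modelWithCornersSelf ℝ Euc4) ∞ X] [T2Space X] [CompactSpace X] [ConnectedSpace X]
      (G : X → Euc4 → M4), IsMetricAtlas G → IsOrientedAtlas X → IsEinsteinAtlas G →
      IsSecNonnegAtlas G →
        ((∀ p, ∀ y ∈ (chartAt Euc4 p).target, ¬ WpNeZeroAt (G p) y) ∨
          (∀ p, ∀ y ∈ (chartAt Euc4 p).target, ¬ WmNeZeroAt (G p) y) ∨
            ∀ p, ∀ y ∈ (chartAt Euc4 p).target, (∀ m i j k l, covRiem (G p) y m i j k l = 0) ∧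
              ∃ Q : M4, Q.transpose * G p y * Q = 1 ∧ inFrame Q (riem (G p) y) = prodTen) ∧
        (IsSecPosAtlas G →
          (∀ p, ∀ y ∈ (chartAt Euc4 p).target, ¬ WpNeZeroAt (G p) y) ∨
            ∀ p, ∀ y ∈ (chartAt Euc4 p).target, ¬ WmNeZeroAt (G p) y) ∧
        ∀ p, ∀ y ∈ (chartAt Euc4 p).target, (¬ WpNeZeroAt (G p) y ∧ ¬ WmNeZeroAt (G p) y ↔
          ∀ i j k l, riem (G p) y i j k l =
            G p y i k * G p y j l - G p y i l * G p y j k)) ∧
    ∃ (X : Type) (_ : TopologicalSpace X) (_ : ChartedSpace Euc4 X)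
      (_ : IsManifold (modelWithCornersSelf ℝ Euc4) ∞ X) (_ : T2Space X) (_ : CompactSpace X)
      (_ : ConnectedSpace X) (G : X → Euc4 → M4),
      IsMetricAtlas G ∧ IsOrientedAtlas X ∧ IsEinsteinAtlas G ∧ IsSecNonnegAtlas G ∧
        IsSecPosAtlas G :=
  classification_positive_of_holds
    (holds_vecV Interior.interior_vecV pair_vecV hess_vecV contact_vecV mult_vecV) goodTarget_rhoV

end Vale.Agent.Results.P211.EinsteinSecNonneg
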